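import Crest.Agent.X212.Unb45.Unb
import Crest.Agent.X212.Nd18.Api

/-!
# Row 212, RAD-IDX0 (helper45): the index on a cylinder vanishes
-/

set_option autoImplicit false
set_option linter.unusedSectionVars false
noncomputable section
open scoped Manifold ContDiff Topology InnerProductSpace
open MeasureTheory Set Function Filter

namespace Crest.Agent.X212.Unb45
open An An.Pre Sob92 Ell97 Cyf70 Fred93

section gen
variable {E : Type} [NormedAddCommGroup E] [NormedSpace ℝ E] [FiniteDimensional ℝ E]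
  [MeasurableSpace E] [BorelSpace E]
  {HM : Type} [TopologicalSpace HM] {I : ModelWithCorners ℝ E HM} [I.Boundaryless]
  {M : Type} [TopologicalSpace M] [ChartedSpace HM M] [IsManifold I ∞ M]
  [MeasurableSpace M] [T2Space M] [BorelSpace M] [SecondCountableTopology M]
  {E' : Type} [NormedAddCommGroup E'] [NormedSpace ℝ E'] [FiniteDimensional ℝ E']
  [MeasurableSpace E'] [BorelSpace E']
  {HM' : Type} [TopologicalSpace HM'] {I' : ModelWithCorners ℝ E' HM'} [I'.Boundaryless]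
  {M' : Type} [TopologicalSpace M'] [ChartedSpace HM' M'] [IsManifold I' ∞ M']
  [MeasurableSpace M'] [T2Space M'] [BorelSpace M'] [SecondCountableTopology M']
  {ι : Type} [Fintype ι]
  {V W : Type} [NormedAddCommGroup V] [InnerProductSpace ℝ V] [FiniteDimensional ℝ V]
  [NormedAddCommGroup W] [InnerProductSpace ℝ W] [FiniteDimensional ℝ W]

section iso
variable {F : Pre I M ι} {F' : Pre I' M' ι} {φ : OpenPartialHomeomorph M M'}
  {p : M → V →L[ℝ] V} {p' : M' → V →L[ℝ] V} (h : Iso F F' φ) (hs : φ.source = univ)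
  (ht : φ.target = univ)
include h hs ht

theorem rep_glob (hp : ∀ x, p x = p' (φ x)) (k : ℕ) :
    ∃ e : F'.H k p' →L[ℝ] F.H k p, F'.RepT F e fun u => u ∘ φ :=
  ⟨_, RepT_congr (rep_trH (f := fun _ => .id ℝ V) h contMDiff_const (CB_const k _)
    (ht ▸ subset_univ _) fun x _ _ hv => (hp x).symm ▸ hv).1 fun _ =>
      funext fun _ => pull_of_mem (hs ▸ mem_univ _) _⟩

/-- a global isometry identifies the Sobolev spaces -/
theorem exists_eqv (hp : ∀ x, p x = p' (φ x)) (k : ℕ) :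
    ∃ e : F'.H k p' ≃L[ℝ] F.H k p, F'.RepT F e.toContinuousLinearMap fun u => u ∘ φ := by
  have r : ∀ y, φ (φ.symm y) = y := fun y => φ.right_inv (ht ▸ mem_univ y)
  have l : ∀ x, φ.symm (φ x) = x := fun x => φ.left_inv (hs ▸ mem_univ x)
  obtain ⟨a, ha⟩ := rep_glob h hs ht hp k
  obtain ⟨b, hb⟩ := rep_glob (p := p') (p' := p) (iso_symm h) ht hs (fun y => by rw [hp, r]) k
  exact ⟨.equivOfInverse a b
    (DFunLike.congr_fun (RepT_eq (RepT_comp hb ha) Rep_id fun u => funext fun y => congrArg u.1 (r y)))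
    (DFunLike.congr_fun (RepT_eq (RepT_comp ha hb) Rep_id fun u => funext fun x => congrArg u.1 (l x))),
    ha⟩

theorem cb_glob {N : Type} [NormedAddCommGroup N] [NormedSpace ℝ N] {f : M' → N} (hf : F'.Cb f) :
    F.Cb fun x => f (φ x) := by
  obtain ⟨C, hC⟩ := hf
  have a : Adm φ (tsupport f) := Adm.mono (K := univ) ⟨ht.ge, by simp [hs]⟩ (isClosed_tsupport f)
    (subset_univ _)
  rw [show (fun x => f (φ x)) = pull φ f from funext fun x => (pull_of_mem (hs ▸ mem_univ x) f).symm]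
  exact ⟨_, sm_pull h hC.1 a, fun k => CB_pull h k hC.1 a (hC.2 k)⟩

end iso

/-- coefficients that tend to zero at infinity give compact operators -/
theorem cpt_small {F : Fr I M ι} {C : ℕ → ℝ} (t : F.Tame C) {p : M → V →L[ℝ] V}
    {q : M → W →L[ℝ] W} {b : M → V →L[ℝ] W} (hb : F.Cb b) (hm : Maps p q b)
    (h : ∀ δ > 0, ∃ K, IsCompact K ∧ ∀ x ∉ K, ‖b x‖ ≤ δ) :
    Cq (F.mulH 0 p q b ∘L F.incl 1 0 p) 0 := by
  refine Cq.of_approx fun ε hε => ?_
  have c0 := cK_nonneg (ι := ι) 0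
  obtain ⟨K, hK, H⟩ := h (ε / (cK ι 0 + 1)) (by positivity)
  obtain ⟨χ, h1, h2, h3, h4⟩ := t.exh K hK
  have m : ∀ f : M → ℝ, Maps p q fun x => f x • b x := fun f x v hv => by simp [hm x v hv]
  have c1 : F.Cb fun x => (1 - χ x) • b x := Cb_smul (Cb_sub (Cb_const 1) ⟨_, h1⟩) hb
  refine ⟨_, .zero (Cht98.rellich_mul (F := F.toPre) (h1.1.smul hb.choose_spec.1) h2.smul_right
    (m χ) zero_lt_one), ?_⟩
  have e : F.mulH 0 p q b = _ := (mulH_congr fun x v _ => by simp [sub_smul]).trans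
    (mulH_add (k := 0) (Cb_smul ⟨_, h1⟩ hb) (m χ) c1 (m _))
  rw [sub_zero, e, ContinuousLinearMap.add_comp]
  refine (congrArg norm (add_sub_cancel_left _ _)).trans_le
    ((ContinuousLinearMap.opNorm_comp_le _ _).trans ((mul_le_mul (norm_mulH_le c1.choose_spec.1
      (C := ε / (cK ι 0 + 1)) (CB_zero.2 fun x => ?_) (m _)) (rep_incl' zero_le_one).2
      (norm_nonneg _) (by positivity)).trans ?_))
  · by_cases hx : x ∈ K
    · rw [h4 x hx, sub_self, zero_smul, norm_zero]; positivity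
    · rw [norm_smul, Real.norm_of_nonneg (sub_nonneg.2 (h3 x).2)]
      exact (mul_le_of_le_one_left (norm_nonneg _) (by linarith [(h3 x).1])).trans (H x hx)
  · rw [mul_one, abs_of_pos (by positivity), ← mul_div_assoc, div_le_iff₀ (by positivity)]
    nlinarith

end gen

section cyl
variable {E : Type} [NormedAddCommGroup E] [NormedSpace ℝ E] [FiniteDimensional ℝ E]
  [MeasurableSpace E] [BorelSpace E]
  {HM : Type} [TopologicalSpace HM] {I : ModelWithCorners ℝ E HM} [I.Boundaryless]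
  {Y : Type} [TopologicalSpace Y] [ChartedSpace HM Y] [IsManifold I ∞ Y] [T2Space Y]
  [MeasurableSpace Y] [BorelSpace Y] [SecondCountableTopology Y] [CompactSpace Y]
  {ι : Type} [Fintype ι]
  {V W : Type} [NormedAddCommGroup V] [InnerProductSpace ℝ V] [NormedAddCommGroup W]
  [InnerProductSpace ℝ W] [FiniteDimensional ℝ V] [FiniteDimensional ℝ W]
  {F : Fr I Y ι} {A : Op Y (Option ι) V W}

/-- `ν (∂_t + L - l)` is invertible off the spectrum -/
theorem bij_cyl (h : CyO F A) {l : ℝ} (hl : kerS F (shf A l) = ⊥) :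
    Bijective (AH F A 0 + (-l • NH' F A 0) ∘L (cylP F.toPre).incl 1 0 (pc A.p) : _ →L[ℝ] _) := by
  have e : h.KL (-l • NH' F A 0) = cp (-l • .id ℝ _) := ContinuousLinearMap.ext fun y => by
    obtain ⟨x, rfl⟩ := (Ψe F.toPre A.p).surjective y
    rw [Ψe_apply, h.KL_Ψ, h.U_apply, _root_.smul_apply, map_smul, h.NH_NH', map_smul]
    exact ((R.rfl _).smul _).ext' ((R.rfl _).ma _ _) fun t => by simp
  rw [h.bij_iff, e]
  refine h.cylD.bij_cp (fun x y => by simp [real_inner_smul_left, real_inner_smul_right]) ?_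
  convert bij_sub (Cht98.rellich zero_lt_one) (h.frL 0) ((inj_shf h l).2 hl) using 2
  ext1 x; simp [sub_eq_add_neg]

end cyl

open Rad94 M

variable {κ lam A : Type} [Fintype κ] [Fintype lam] [Fintype A] {X : Mf 4} (g : Gm X κ lam A)

theorem mem_J (s : A) (t : ℝ) : t ∈ (g.K s).J ↔ -1 < g.sg s * (t - g.o s) - 1 := by
  have h1 := g.hp s
  have h2 := g.hq s
  simp only [Nd18.Nk.J, Nd18.Jv, Gm.sg, pm]
  cases h : g.sd s <;> simp_all

theorem mem_Dp (s : A) (t : ℝ) :
    t ∈ Nd18.Dp (g.K s).p (g.K s).q 1 ↔ 0 ≤ g.sg s * (t - g.o s) - 1 := by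
  have h1 := g.hp s
  have h2 := g.hq s
  simp only [Nd18.Dp, Gm.sg, pm]
  cases h : g.sd s <;> simp_all <;> constructor <;> intro <;> linarith

theorem mem_tgt (s : A) (x : X.M) : x ∈ (g.K s).ψ.target ↔ -1 < g.ht s x := by
  rw [(g.K s).tgt]; exact mem_J g s _

/-- radial functions have bounded derivatives -/
theorem cb_rd {c : A → ℝ → ℝ} (h0 : ∀ s, ∀ τ ≤ 0, c s τ = 0) (h : ∀ s, ∃ C, Nd18.BD (c s) C) :
    g.F.Cb (g.rd c) := by
  have : ∀ s, g.F.Cb fun x => c s (g.ht s x) := fun s => by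
    obtain ⟨C, hC⟩ := h s
    have b : Nd18.BD (fun t => c s (g.sg s * (t - g.o s) - 1)) C := by
      simp only [Gm.sg, pm]
      split_ifs
      · convert hC.shift (-g.o s - 1) using 3 with t; ring
      · convert hC.refl (g.o s - 1) using 3 with t; ring
    have z : ∀ t ∉ Nd18.Dp (g.K s).p (g.K s).q 1, c s (g.sg s * (t - g.o s) - 1) = 0 :=
      fun t ht => h0 s _ (not_le.1 (mt (mem_Dp g s t).2 ht)).le
    exact ⟨_, (g.K s).push_time one_pos z ▸ (g.K s).CBs_push one_pos (b.cyl _) fun y => z y.2⟩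
  exact Cb_sum Finset.univ fun s _ => this s

theorem chi0 (l : A → ℝ) (s : A) (τ : ℝ) (h : τ ≤ 0) : χ τ * l s = 0 :=
  mul_eq_zero_of_left (Real.smoothTransition.zero_of_nonpos h) _

theorem cb_chi (l : A → ℝ) : g.F.Cb (g.rd fun s τ => χ τ * l s) :=
  cb_rd g (chi0 l) fun s =>
    let ⟨_, h⟩ := Nd18.bd_st; ⟨_, h.mul (.const (l s))⟩

variable {g}

theorem rd_eq (h : g.OK) {c : A → ℝ → ℝ} (h0 : ∀ s, ∀ τ ≤ 0, c s τ = 0) {s : A} {x : X.M}
    (hx : -1 < g.ht s x) : g.rd c x = c s (g.ht s x) :=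
  Finset.sum_eq_single s (fun s' _ e => h0 _ _ <| by
    have : x ∈ _ → x ∉ _ := fun hx => disjoint_left.1 (h.dj e) hx
    rw [mem_tgt, mem_tgt] at this
    linarith [not_lt.1 fun h' => this h' hx]) (by simp)

/-- **IDX0** -/
theorem idx0 (κ lam : Type) [Fintype κ] [Fintype lam] : Idx0Stmt κ lam := by
  intro X A _ g V W _ _ _ _ _ _ L h _ s K hp hq hσ hB l hl
  have hs : K.ψ.source = univ := by simp [K.src, hp, hq, Nd18.Jv]
  have ht : K.ψ.target = univ := by simp [K.tgt, hp, hq, Nd18.Jv]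
  have cy := h.cy s
  obtain ⟨C, G⟩ := h.good
  obtain ⟨C', G'⟩ := cy.good
  obtain ⟨e1, r1⟩ := exists_eqv (p := pc (L.E s).p) K.iso hs ht (fun x => (hσ x).1.symm) 1
  obtain ⟨e0, r0⟩ := exists_eqv (p := pc (L.E s).q) K.iso hs ht (fun x => (hσ x).2.1.symm) 0
  have cB : g.F.Cb (L.sh fun _ => l).B :=
    Cb_sub (Cb_add ⟨_, G.B⟩ (Cb_const 0)) (Cb_smul (cb_chi g _) ⟨_, G.σ none⟩)
  have mB : ∀ x v, L.A.q x ((L.sh fun _ => l).B x v) = (L.sh fun _ => l).B x v := fun x v => by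
    simp [Lop.sh, Lop.ms, G.qB, G.qσ]
  have rT : g.F.Rep (L.T fun _ => l) ((L.sh fun _ => l).app g.F) :=
    rep_opH (fun a => ⟨_, G.σ a⟩) cB G.qσ (.of_left mB)
  let b : (g.Y s).M × ℝ → V →L[ℝ] W := fun z =>
    (L.sh fun _ => l).B (K.ψ z) - ((L.E s).B z.1 - l • (L.E s).σ none z.1)
  have cb : (g.D s).Z.Cb b := Cb_sub (cb_glob K.iso hs ht cB)
    (Cb_sub ⟨_, G'.B⟩ (Cb_smul (Cb_const l) (cy.cb_σ none)))
  have mb : Maps (pc (L.E s).p) (pc (L.E s).q) b := .of_left fun z v => by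
    simp only [b, _root_.sub_apply, _root_.smul_apply, map_sub, map_smul]
    exact congrArg₂ (· - ·) ((DFunLike.congr_fun (hσ z).2.1 _).symm.trans (mB _ v))
      (congrArg₂ (fun a b => a - l • b) (G'.qB z v) (G'.qσ none z v))
  have kb := cpt_small cy.tameZ.choose_spec cb mb fun δ hδ => by
    obtain ⟨T, hT⟩ := hB δ hδ
    refine ⟨univ ×ˢ Icc (-T) T ∪ K.ψ.symm '' g.cor 1, (isCompact_univ.prod isCompact_Icc).union
      ((h.gm.cpt 1).image_of_continuousOn (K.ψ.continuousOn_symm.mono (ht ▸ subset_univ _))),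
      fun z hz => ?_⟩
    obtain ⟨s', h'⟩ : ∃ s', 1 < g.ht s' (K.ψ z) := by
      by_contra! H
      exact hz (.inr ⟨_, H, K.ψ.left_inv (hs ▸ mem_univ z)⟩)
    have e : b z = L.A.B (K.ψ z) - (L.E s).B z.1 := by
      simp only [b, Lop.sh, Lop.ms, Pi.zero_apply, add_zero, (hσ z).2.2]
      rw [rd_eq h.gm (chi0 fun _ => l) (by linarith : -1 < g.ht s' _),
        show χ _ = 1 from Real.smoothTransition.one_of_one_le h'.le, one_mul]
      abel
    exact e ▸ hT z (not_lt.1 fun H => hz (.inl ⟨trivial, (abs_lt.1 H).1.le, (abs_lt.1 H).2.le⟩))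
  have f0 := (Fr.of_bijective (bij_cyl cy (not_not.1 hl))).add_compact kb.cpt
  have key := RepT_eq (RepT_comp r0 rT) (RepT_comp (RepT_add (RepT_add cy.rep_AH (RepT_comp
    (RepT_smul (-l) cy.rep_NH') (rep_incl zero_le_one))) (RepT_comp (rep_mulH cb mb)
      (rep_incl zero_le_one))) r1) fun u => funext fun z => by
    have d : ∀ a, (g.D s).Z.D a (u.1 ∘ K.ψ) z = g.F.D a u.1 (K.ψ z) := fun a =>
      iso_D' K.iso a u.2.1 (fun _ _ => rfl) (hs ▸ mem_univ z)
    simp only [comp_apply, Pi.add_apply, Pi.smul_apply, id, Op.app, Pre.op, d, b,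
      _root_.sub_apply, _root_.smul_apply, ← (hσ z).2.2]
    change ∑ a, L.A.σ a _ _ + _ = _
    module
  refine ((f0.conj e1 e0.symm).congr fun x => ?_).2
  exact (e0.symm_apply_apply _).symm.trans (congrArg e0.symm (DFunLike.congr_fun key x))

end Crest.Agent.X212.Unb45
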