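import Crest.Agent.X212.Rad94.Lin
import Crest.Agent.X212.Wrd81.Par

/-!
# Row 212, RAD-UNB (helper45): the spectrum of the cross-section is unbounded above
-/

set_option autoImplicit false
set_option linter.unusedSectionVars false
noncomputable section
open scoped Manifold ContDiff Topology InnerProductSpace
open MeasureTheory Set Function Filter

namespace Crest.Agent.X212.Unb45
open An An.Pre Sob92 Ell97 Cyf70 Fred93

section abs
variable {X₁ X₀ : Type} [NormedAddCommGroup X₁] [NormedSpace ℝ X₁] [CompleteSpace X₁]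
  [NormedAddCommGroup X₀] [InnerProductSpace ℝ X₀] [CompleteSpace X₀]

theorem pos_eig {R : X₀ →L[ℝ] X₀} (hR : IsCompactOperator R)
    (hs : ∀ x y, ⟪R x, y⟫_ℝ = ⟪x, R y⟫_ℝ) {f : X₀} (hf : 0 < ⟪R f, f⟫_ℝ) :
    ∃ μ > (0 : ℝ), ∃ g ≠ 0, R g = μ • g := by
  set S : X₀ →L[ℝ] X₀ := algebraMap ℝ _ ‖R‖ + R
  have eS : ∀ x, S x = ‖R‖ • x + R x := fun x => by simp [S, Algebra.algebraMap_eq_smul_one]
  have h1 : ‖R‖ < ‖S‖ := by
    have a := real_inner_le_norm (S f) f
    have b := S.le_opNorm f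
    rw [eS, inner_add_left, real_inner_smul_left, real_inner_self_eq_norm_sq, ← eS] at a
    by_contra! h
    nlinarith [norm_nonneg f, mul_le_mul_of_nonneg_right h (sq_nonneg ‖f‖),
      mul_le_mul_of_nonneg_right b (norm_nonneg f)]
  have h2 : (S : X₀ →ₗ[ℝ] X₀).IsSymmetric := fun x y => by
    change ⟪S x, y⟫_ℝ = ⟪x, S y⟫_ℝ
    rw [eS, eS, inner_add_left, inner_add_right, hs, real_inner_smul_left, real_inner_smul_right]
  have h3 : (‖R‖₊ : ENNReal) < spectralRadius ℝ S := by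
    rw [S.spectralRadius_eq_nnnorm h2.isSelfAdjoint]; exact_mod_cast h1
  simp only [spectralRadius, lt_iSup_iff] at h3
  obtain ⟨ν, hν, h4⟩ := h3
  have h5 : ‖R‖ < |ν| := by exact_mod_cast h4
  have h6 : ν - ‖R‖ ∈ spectrum ℝ R := by
    rw [← spectrum.add_mem_add_iff (s := ‖R‖), sub_add_cancel]; exact hν
  have h7 := (spectrum.norm_le_norm_mul_of_mem h6).trans
    (mul_le_of_le_one_right (norm_nonneg R) ContinuousLinearMap.norm_id_le)
  have h8 : 0 < ν - ‖R‖ := by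
    rw [Real.norm_eq_abs, abs_le] at h7
    rw [abs_of_nonneg (by linarith)] at h5; linarith
  obtain ⟨g, hg⟩ := ((hR.hasEigenvalue_iff_mem_spectrum h8.ne').2 h6).exists_hasEigenvector
  exact ⟨_, h8, g, hg.2, hg.apply_eq_smul⟩

theorem bij_sub {i L : X₁ →L[ℝ] X₀} (hi : IsCompactOperator i) (hL : Fr L 0) {l : ℝ}
    (h : Injective (L - l • i : X₁ →L[ℝ] X₀)) : Bijective (L - l • i : X₁ →L[ℝ] X₀) :=
  ⟨h, (hL.of_sub_compact (by simpa using (hi.smul l).neg)).surj_of_inj h⟩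

theorem exists_eig {i L : X₁ →L[ℝ] X₀} (hi : IsCompactOperator i) (hL : Fr L 0)
    (hs : ∀ u v, ⟪L u, i v⟫_ℝ = ⟪i u, L v⟫_ℝ) {l : ℝ} {u : X₁}
    (hu : l * ⟪i u, i u⟫_ℝ < ⟪L u, i u⟫_ℝ) :
    ∃ μ ≥ l, ¬Injective (L - μ • i : X₁ →L[ℝ] X₀) := by
  by_contra! H
  have hb := bij_sub hi hL (H l le_rfl)
  let e := ContinuousLinearEquiv.ofBijective _ (LinearMap.ker_eq_bot.2 hb.1)
    (LinearMap.range_eq_top.2 hb.2)
  have ee : ∀ x, e x = L x - l • i x := fun _ => rfl
  obtain ⟨μ, hμ, g, hg, h1⟩ := pos_eig (R := i ∘L (e.symm : X₀ →L[ℝ] X₁)) (hi.comp_clm _)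
    (fun x y => by
      obtain ⟨x, rfl⟩ := e.surjective x
      obtain ⟨y, rfl⟩ := e.surjective y
      simp only [ContinuousLinearMap.comp_apply, ContinuousLinearEquiv.coe_coe, e.symm_apply_apply]
      rw [ee, ee, inner_sub_left, inner_sub_right, hs, real_inner_smul_left, real_inner_smul_right])
    (f := e u) (by
      simp only [ContinuousLinearMap.comp_apply, ContinuousLinearEquiv.coe_coe, e.symm_apply_apply]
      rw [ee, inner_sub_right, ← hs, real_inner_smul_right]; linarith)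
  obtain ⟨v, rfl⟩ := e.surjective g
  simp only [ContinuousLinearMap.comp_apply, ContinuousLinearEquiv.coe_coe,
    e.symm_apply_apply] at h1
  refine hg ?_
  rw [(injective_iff_map_eq_zero _).1 (H (l + μ⁻¹) (le_add_of_nonneg_right (inv_pos.2 hμ).le)) v ?_,
    map_zero]
  change L v - (l + μ⁻¹) • i v = 0
  rw [add_smul, ← sub_sub, ← ee, h1, smul_smul, inv_mul_cancel₀ hμ.ne', one_smul, sub_self]

end abs

variable {E : Type} [NormedAddCommGroup E] [NormedSpace ℝ E] [FiniteDimensional ℝ E]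
  [MeasurableSpace E] [BorelSpace E]
  {HM : Type} [TopologicalSpace HM] {I : ModelWithCorners ℝ E HM} [I.Boundaryless]
  {Y : Type} [TopologicalSpace Y] [ChartedSpace HM Y] [IsManifold I ∞ Y] [T2Space Y]
  [MeasurableSpace Y] [BorelSpace Y] [SecondCountableTopology Y] [CompactSpace Y]
  {ι : Type} [Fintype ι]
  {V W : Type} [NormedAddCommGroup V] [InnerProductSpace ℝ V] [NormedAddCommGroup W]
  [InnerProductSpace ℝ W] [FiniteDimensional ℝ V] [FiniteDimensional ℝ W]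
  {F : Fr I Y ι} {A : Op Y (Option ι) V W}

/-- `L - l` -/
abbrev shf (A : Op Y (Option ι) V W) (l : ℝ) : Op Y ι V V :=
  { sop A with B := fun y => (sop A).B y - l • A.p y }

theorem inj_shf (h : CyO F A) (l : ℝ) :
    Injective (LH F A 0 - l • F.incl 1 0 A.p : _ →L[ℝ] _) ↔ kerS F (shf A l) = ⊥ := by
  obtain ⟨C, g⟩ := h.good_sop
  obtain ⟨C', t⟩ := h.tameY
  obtain ⟨C'', g'⟩ : ∃ C, (shf A l).Good F C := good_of_cb ⟨_, g.p.cb⟩ ⟨_, g.p.cb⟩
    (fun a => ⟨_, g.σ a⟩) (Cb_sub ⟨_, g.B⟩ (Cb_smul (Cb_const l) ⟨_, g.p.cb⟩)) g.p.idem g.p.symm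
    g.p.idem g.p.symm g.σp g.qσ (fun y v => by
      change A.p y (_ - l • A.p y v) = _ - l • A.p y v
      rw [map_sub, map_smul]; exact congrArg₂ (fun a b => a - l • b) (g.qB y v) (g.p.idem y v))
    g.Pσ
  rw [← inj_iff t g' h.cliffL 0, RepT_eq (rep_OpH g' 0).1 (RepT_sub (rep_OpH g 0).1
    (RepT_smul l (rep_incl zero_le_one))) fun u => funext fun y => ?_]
  change _ + (_ - l • A.p y (u.1 y)) = _ + _ - l • u.1 y
  rw [u.2.2.2, add_sub_assoc]; rfl

theorem exists_test [Nontrivial E] (h : CyO F A) {y₀ : Y} (hy : A.p y₀ ≠ 0) (l : ℝ) :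
    ∃ u : Sec I A.p, l * F.ip 0 u.1 u.1 < F.ip 0 ((sop A).app F u.1) u.1 := by
  obtain ⟨C, g⟩ := h.good_sop
  obtain ⟨v₀, hv⟩ : ∃ v, A.p y₀ v ≠ 0 := by
    by_contra! H; exact hy (ContinuousLinearMap.ext H)
  obtain ⟨b, hb⟩ : ∃ b, (sop A).σ b y₀ (A.p y₀ v₀) ≠ 0 := by
    by_contra! H
    have h1 : ∀ a, F.e a y₀ = 0 := fun a => (F.P_e a y₀).symm.trans <|
      Finset.sum_eq_zero fun b _ => by
        have := h.cliffL a b y₀ (A.p y₀ v₀) (A.p y₀ v₀)
        rw [H, H, inner_zero_left, add_zero, show (sop A).p y₀ (A.p y₀ v₀) = _ from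
          g.p.idem y₀ v₀, eq_comm, mul_eq_zero, inner_self_eq_zero, or_iff_left hv] at this
        rw [show F.P a b y₀ = 0 by linarith, zero_smul]
    obtain ⟨x, hx⟩ := exists_ne (0 : E)
    refine hx ((Submodule.span_eq_bot (R := ℝ) (s := range fun a => F.e a y₀)).2 ?_ |>.symm ▸
      F.span y₀ |>.ge (Submodule.mem_top (x := x)))
    rintro _ ⟨a, rfl⟩; exact h1 a
  obtain ⟨ξ, hξ⟩ := Wrd81.exists_covector F y₀ b
  obtain ⟨f, hf, -, -, hfd⟩ := Wrd81.exists_fun_deriv (I := I) (univ_mem : univ ∈ 𝓝 y₀) ξ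
  set S := sy F (sop A) f
  have sS : Sm I S := (cb_sy g (Cb_of_compact hf)).choose_spec.1
  have e0 : S y₀ = (sop A).σ b y₀ :=
    Eq.trans (Finset.sum_congr rfl fun a _ => by rw [← hξ, ← hfd]; rfl) (g.Pσ b y₀)
  have sk : ∀ y v w, ⟪S y v, w⟫_ℝ = -⟪v, S y w⟫_ℝ := fun y v w => by
    simp only [S, sy, _root_.sum_apply, _root_.smul_apply, sum_inner, inner_sum,
      real_inner_smul_left, real_inner_smul_right, ContinuousLinearMap.comp_apply, h.skew, mul_neg,
      Finset.sum_neg_distrib]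
  let v : Sec I A.p := ⟨fun y => A.p y v₀, g.p.cb.1.clm_apply contMDiff_const,
    .of_compactSpace _, fun y => g.p.idem y v₀⟩
  let w : Sec I A.p := ⟨fun y => -S y (v.1 y), (sS.clm_apply v.2.1).neg, .of_compactSpace _,
    fun y => by simp only [S, sy, _root_.sum_apply, _root_.smul_apply, map_neg, map_sum, map_smul,
      ContinuousLinearMap.comp_apply, h.p_nu]⟩
  have cv := v.2.1.continuous
  have cw := w.2.1.continuous
  have cLv : Continuous ((sop A).app F v.1) := (LS g v).2.1.continuous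
  have cLw : Continuous ((sop A).app F w.1) := (LS g w).2.1.continuous
  have int : ∀ {k : Y → ℝ}, Continuous k → Integrable k F.μ := fun hk =>
    hk.integrable_of_hasCompactSupport (.of_compactSpace _)
  let K : Y → ℝ := fun y => (‖(sop A).app F v.1 y‖ + ‖(sop A).app F w.1 y‖) * (‖v.1 y‖ + ‖w.1 y‖) +
    |l| * (‖v.1 y‖ + ‖w.1 y‖) ^ 2
  have cK : Continuous K := by fun_prop
  have := openPos F.toPre
  have hI : 0 < ∫ y, ‖w.1 y‖ ^ 2 ∂F.μ := (cw.norm.pow 2).integral_pos_of_hasCompactSupport_nonneg_nonzero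
    (.of_compactSpace _) (fun y => sq_nonneg _) (x := y₀)
    (pow_ne_zero 2 (norm_ne_zero_iff.2 (neg_ne_zero.2 (e0 ▸ hb))))
  obtain ⟨m, hm⟩ : ∃ m : ℝ, ∫ y, K y ∂F.μ < m * ∫ y, ‖w.1 y‖ ^ 2 ∂F.μ :=
    ⟨_, (div_lt_iff₀ hI).1 (lt_add_one _)⟩
  have sc : Sm I fun y => Real.cos (m * f y) :=
    (Real.contDiff_cos.comp (contDiff_const.mul contDiff_id)).contMDiff.comp hf
  have ss : Sm I fun y => Real.sin (m * f y) :=
    (Real.contDiff_sin.comp (contDiff_const.mul contDiff_id)).contMDiff.comp hf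
  have ch : ∀ {φ : ℝ → ℝ} {c : ℝ} (y : Y), HasDerivAt φ c (f y) →
      sy F (sop A) (fun y => φ (f y)) y = c • S y := fun y H => by
    simp only [S, sy, Finset.smul_sum, smul_smul]
    refine Finset.sum_congr rfl fun a _ => ?_
    rw [D_def, dv_comp (md hf y) H.hasFDerivAt]; simp [D_def, mul_comm]
  let u : Sec I A.p := ⟨(fun y => Real.cos (m * f y) • v.1 y) + fun y => Real.sin (m * f y) • w.1 y,
    (sc.smul v.2.1).add (ss.smul w.2.1), .of_compactSpace _, fun y => by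
      simp only [Pi.add_apply, map_add, map_smul, v.2.2.2 y, w.2.2.2 y]⟩
  have cu := u.2.1.continuous
  have cLu : Continuous ((sop A).app F u.1) := (LS g u).2.1.continuous
  refine ⟨u, sub_pos.1 ((sub_pos.2 hm).trans_le ?_)⟩
  simp only [ip]
  rw [← integral_const_mul, ← integral_const_mul, ← integral_sub (int (by fun_prop)) (int cK),
    ← integral_sub (int (by fun_prop)) (int (by fun_prop))]
  refine integral_mono (int (by fun_prop)) (int (by fun_prop)) fun y => ?_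
  have d1 := ch (φ := fun t => Real.cos (m * t)) y (((hasDerivAt_id _).const_mul m).cos)
  have d2 := ch (φ := fun t => Real.sin (m * t)) y (((hasDerivAt_id _).const_mul m).sin)
  have e1 : u.1 y = Real.cos (m * f y) • v.1 y + Real.sin (m * f y) • w.1 y := rfl
  have e2 : S y (v.1 y) = -w.1 y := (neg_neg _).symm
  have e3 : (sop A).app F u.1 y = _ := (app_add (sc.smul v.2.1) (ss.smul w.2.1) y).trans
    (congrArg₂ (· + ·) (app_smul sc v.2.1 y) (app_smul ss w.2.1 y))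
  rw [d1, d2] at e3
  have k1 := sk y (v.1 y) (v.1 y)
  have k2 := sk y (w.1 y) (w.1 y)
  have k3 := sk y (w.1 y) (v.1 y)
  rw [real_inner_comm] at k1 k2
  have k4 := Real.cos_sq_add_sin_sq (m * f y)
  have b1 := Real.abs_cos_le_one (m * f y)
  have b2 := Real.abs_sin_le_one (m * f y)
  simp only [id, mul_one, _root_.smul_apply] at e3
  generalize Real.cos (m * f y) = c at *
  generalize Real.sin (m * f y) = s at *
  have nb : ∀ a b : V, ‖c • a + s • b‖ ≤ ‖a‖ + ‖b‖ := fun a b => (norm_add_le _ _).trans <| by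
    rw [norm_smul, norm_smul]
    exact add_le_add (mul_le_of_le_one_left (norm_nonneg _) b1)
      (mul_le_of_le_one_left (norm_nonneg _) b2)
  have n1 := nb (v.1 y) (w.1 y)
  have n2 := (abs_real_inner_le_norm _ _).trans (mul_le_mul (nb ((sop A).app F v.1 y)
    ((sop A).app F w.1 y)) n1 (norm_nonneg _) (by positivity))
  have n3 : l * ⟪u.1 y, u.1 y⟫_ℝ ≤ |l| * (‖v.1 y‖ + ‖w.1 y‖) ^ 2 := by
    rw [real_inner_self_eq_norm_sq, e1]
    exact (mul_le_mul_of_nonneg_right (le_abs_self l) (sq_nonneg _)).trans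
      (mul_le_mul_of_nonneg_left (pow_le_pow_left₀ (norm_nonneg _) n1 2) (abs_nonneg l))
  have e4 : ⟪(sop A).app F u.1 y, u.1 y⟫_ℝ = ⟪c • (sop A).app F v.1 y + s • (sop A).app F w.1 y,
      c • v.1 y + s • w.1 y⟫_ℝ + m * ‖w.1 y‖ ^ 2 := by
    rw [e3, e1, add_add_add_comm, inner_add_left]
    congr 1
    rw [e2, inner_neg_right, neg_neg, real_inner_self_eq_norm_sq] at k3
    have k5 : ⟪v.1 y, S y (v.1 y)⟫_ℝ = 0 := by linarith
    have k6 : ⟪w.1 y, S y (w.1 y)⟫_ℝ = 0 := by linarith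
    rw [real_inner_comm] at k5 k6
    simp only [inner_add_left, inner_add_right, real_inner_smul_left, real_inner_smul_right, k3, k5,
      k6]
    rw [e2, inner_neg_left, real_inner_self_eq_norm_sq]
    linear_combination (m * ‖w.1 y‖ ^ 2) * k4
  simp only [K]
  linarith [(abs_le.1 n2).1]

theorem unb_cy [Nontrivial E] (h : CyO F A) {y₀ : Y} (hy : A.p y₀ ≠ 0) (a : ℝ) :
    ∃ l > a, kerS F (shf A l) ≠ ⊥ := by
  obtain ⟨C, g⟩ := h.good_sop
  obtain ⟨u, hu⟩ := exists_test h hy (a + 1)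
  obtain ⟨μ, h1, h2⟩ := exists_eig (Cht98.rellich zero_lt_one) (h.frL 0) h.symH (l := a + 1)
    (u := F.toH 1 A.p u) (by
      rw [LH, H_toH g, incl_toH zero_le_one, inner_toH, inner_toH]; exact hu)
  exact ⟨μ, by linarith, fun e => h2 ((inj_shf h μ).2 e)⟩

/-- **UNB** -/
theorem unb (κ lam : Type) [Fintype κ] [Fintype lam] : Rad94.UnbStmt κ lam :=
  fun _ _ _ g _ _ _ _ _ _ _ _ _ h s ⟨_, hy⟩ a =>
    have : Nontrivial (g.Y s).E := Module.nontrivial_of_finrank_pos (R := ℝ) (by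
      rw [(g.Y s).dim]; norm_num)
    let ⟨l, h1, h2⟩ := unb_cy (h.cy s) hy a
    ⟨l, h2, h1⟩

end Crest.Agent.X212.Unb45
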